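import Vale.Agent.N144.KY.Ker

/-!
The plus model along moving points.
-/

set_option linter.all false

namespace Vale.Agent.N144.KY

open Filter Topology Finset Vale.Agent.P144 Vale.Agent.N144.C
open Vale.Agent.P144.AL (Pf cenK Pf_congr Pf_scale Pf_tendsto)
open Vale.Agent.P144.H170 (rM pt)
open Vale.Agent.P144S (Wf MM ce cp Rq pl)
open Vale.Agent.P144S.F (sj cl lb lb_even lb_prod wl sub_lb)
open Vale.Agent.P144Y (Dom FamP Rep GW fm Cn Ext)
open Vale.Agent.P144Y.C (zs Rq_eq geo_of)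
open Vale.Agent.P144Y.J (p0 good_p0 Rq_p0 wt_sum)

theorem prod_all {m : ℕ} (f : Fin m → ℝ) :
    ((univ : Finset (Fin m)).toList.map f).prod = ∏ k, f k := prod_map_toList _ _

/-- The correlation as a sum of Pfaffians. -/
theorem corr_pt {J : ℝ} (hJ : 0 < J) {P : ℝ → Finset Site} {T : Finset ℂ} {p : Pts} {a : ℝ}
    (ha : 0 < a) (hx : Function.Injective p.x)
    (h1 : ∀ k l, k ≠ l → fl a (p.y k) + dir (p.j k) ≠ fl a (p.y l) + dir (p.j l))
    (h2 : ∀ k, fl a (p.y k) + dir (p.j k) ∈ P a)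
    (h3 : (∀ t ∈ T, fl a t ∉ P a) ∧ ∀ v ∉ P a, ∃ t ∈ T, Cn (P a) v (fl a t)) :
    corr a (pl J (P a)) p =
      (∑ S ∈ T.powerset, GW P (univ.image p.x) S a * Pf (P144Y.J.ZZ P T p S a) (lb univ.toList)) /
        ∑ S ∈ T.powerset, MM (P a) (fm a S) := by
  set s := (univ : Finset (Fin p.m)).toList with hs
  have hsn : s.Nodup := nodup_toList _
  have hpr : ∀ f : Fin p.m → ℝ, (s.map f).prod = ∏ k, f k := prod_all
  have hsm : ∀ f : Fin p.m → ℝ, (s.map f).sum = ∑ k, f k := fun f => sum_map_toList _ _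
  set t : Fin p.m → ℝ := fun k => sj (p.j k) * P144Y.J.mt P T p a k with ht
  have e3 : ∀ S, Pf (P144Y.J.ZZ P T p S a) (lb s) = Pf (fun x y => (√a)⁻¹ * (√a)⁻¹ *
      cenK (P144S.F.KK (P a) (Rq p a + fm a S) (fun k => fl a (p.y k)) p.j) (fun k => (k, false))
        (fun k => (k, true)) t s x y) (lb s) := by
    intro S
    refine Pf_congr _ ?_
    rintro ⟨k, b⟩ ⟨l, b'⟩ h
    rw [← mul_inv, Real.mul_self_sqrt ha.le]
    unfold P144Y.J.ZZ cenK
    rw [hsm, div_eq_inv_mul]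
    congr 1
    rcases sub_lb hsn h with h | ⟨h, hb, hb'⟩
    · rw [if_neg h, sum_eq_zero fun q _ => ?_, sub_zero, sub_zero]
      · rfl
      refine if_neg fun h' => h ?_
      exact (Prod.ext_iff.1 h'.1).1.trans (Prod.ext_iff.1 h'.2).1.symm
    · simp only at h hb hb'
      subst h hb hb'
      simp only [Prod.mk.injEq, and_true, and_self, sum_ite_eq, mem_univ, if_true, P144S.F.KK, wl,
        ht, cl, cp, Bool.false_eq_true, if_false]
      ring
  have e4 : ((lb s).map fun _ => (√a)⁻¹).prod = a⁻¹ ^ p.m := by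
    rw [lb_prod, ← mul_inv, Real.mul_self_sqrt ha.le, hpr]
    simp
  have e5 : fm a (univ.image p.x) = Rq p a := by
    unfold fm Rq rM
    rw [image_val_of_injOn hx.injOn, Multiset.map_map]
    rfl
  have e6 : a ^ (-((univ.image p.x).card : ℝ) / 8) = (a ^ (-(1 / 8) : ℝ)) ^ p.n := by
    rw [← Real.rpow_natCast, ← Real.rpow_mul ha.le, card_image_of_injective _ hx, card_univ,
      Fintype.card_fin]
    congr 1
    ring
  simp only [e3, AL.Pf_scale _ (fun _ => (√a)⁻¹) _ (lb_even s), e4]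
  unfold corr GW
  simp only [P144Y.F.mean hJ h3.1 h3.2]
  have e7 : (fun σ : Config => (∏ i, a ^ (-(1 / 8) : ℝ) * sp (σ (fl a (p.x i)))) *
      ∏ k, a⁻¹ * (sp (σ (fl a (p.y k))) * sp (σ (fl a (p.y k) + dir (p.j k))) -
        sj (p.j k) * ∑ S ∈ T.powerset, MM (P a) (S.val.map (fl a)) /
          (∑ S ∈ T.powerset, MM (P a) (S.val.map (fl a))) * Wf (P a) (S.val.map (fl a))
            [ce (fl a (p.y k)) (p.j k) false, ce (fl a (p.y k)) (p.j k) true])) =
      fun σ => ((a ^ (-(1 / 8) : ℝ)) ^ p.n * a⁻¹ ^ p.m) *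
        (((Rq p a).map fun x => sp (σ x)).prod * (s.map fun k => sp (σ (fl a (p.y k))) *
          sp (σ (fl a (p.y k) + dir (p.j k))) - t k).prod) := by
    funext σ
    have e : ((Rq p a).map fun x => sp (σ x)).prod = ∏ i, sp (σ (fl a (p.x i))) := by
      unfold Rq rM
      rw [Multiset.map_map]
      rfl
    rw [e, prod_mul_distrib, prod_mul_distrib, prod_const, prod_const, card_univ, card_univ,
      Fintype.card_fin, Fintype.card_fin, hpr]
    simp only [ht, P144Y.J.mt, P144Y.J.wt, cp, fm]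
    ring
  rw [e7, e5, e6]
  unfold pl
  rw [P144Q.B.gibbs_cmul]
  have e8 := P144Y.F.mixed h1 h2 hJ h3.1 h3.2 (Rq p a) hsn t
  unfold pl at e8
  rw [e8, ← mul_div_assoc, mul_sum]
  congr 1
  refine sum_congr rfl fun S _ => ?_
  simp only [fm]
  ring

theorem ZZ_diag (P : ℝ → Finset Site) (T S : Finset ℂ) (p : Pts) (a : ℝ) (k : Fin p.m) (Q : ℝ) :
    P144Y.J.ZZ P T p S a (k, false) (k, true) = sj (p.j k) *
      ((Wf (P a) (Rq p a + fm a S) [cp p a k false, cp p a k true] - Q) / a -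
        ∑ S ∈ T.powerset, P144Y.J.wt P T S a *
          ((Wf (P a) (fm a S) [cp p a k false, cp p a k true] - Q) / a)) := by
  unfold P144Y.J.ZZ P144Y.J.mt wl
  simp only [if_true, Bool.false_eq_true, if_false, one_mul, ← mul_div_assoc, ← sum_div, mul_sub,
    sum_sub_distrib, ← sum_mul, wt_sum]
  ring

variable {Ω : Dom} {P : ℝ → Finset Site} {T S : Finset ℂ} {p : Pts} {ι : Type} {a : ι → ℝ}
  {x : ι → Fin p.n → ℂ} {y : ι → Fin p.m → ℂ}

/-- The Pfaffians converge. -/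
theorem pf_lim {U : Ultrafilter ι} (hF : FamP Ω.D P) (hT : ∀ z ∈ T, z ∈ Ext Ω.D)
    (hp : P144Q.Good0 Ω.D p) (h : Mv (U : Filter ι) a p x y) (hS : S ⊆ T) {e : EF p.m}
    {e₀ : Finset ℂ → EF p.m} (he : IsE Ω (zs p S) p.y e)
    (he₀ : ∀ S ⊆ T, IsE Ω (zs (p0 p) S) p.y (e₀ S)) {w : Finset ℂ → ℝ}
    (hw : ∀ S ⊆ T, Tendsto (fun k => P144Y.J.wt P T S (a k)) U (𝓝 (w S))) :
    Tendsto (fun k => Pf (P144Y.J.ZZ P T (mv p (x k) (y k)) S (a k)) (lb univ.toList)) U
      (𝓝 (vP p e fun k η => ∑ S' ∈ T.powerset, (w S' : ℂ) * (e₀ S').Y k η)) := by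
  have hy : Function.Injective p.y := fun i i' h => Sum.inr_injective (hp.2.2 (by simpa using h))
  have hf := fun l => pt_fl h.a0 (h.hy l)
  obtain ⟨⟨σ, t, σ2, t2, h1⟩, h2⟩ := kern hF (mo_of (ζ := zs p S)
    (x := fun k => zs (mv p (x k) (y k)) S) hF h.a0 (by
      rintro (i | s)
      exacts [h.hx i, tendsto_const_nhds])) hy (geo_of hp fun z hz => hT z (hS hz)) he hf p.j
  have h3 := fun S (hS : S ⊆ T) => (kern hF (mo_of (x := fun _ => zs (p0 p) S) hF h.a0
    fun _ => tendsto_const_nhds) hy (geo_of (good_p0 hp) fun z hz => hT z (hS hz)) (he₀ S hS)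
      hf p.j).2
  have e1 : ∀ k, (rM fun i => fl (a k) (zs (mv p (x k) (y k)) S i)) =
      Rq (mv p (x k) (y k)) (a k) + fm (a k) S := fun k => (Rq_eq _ _ _).symm
  have e2 : ∀ k S, (rM fun i => fl (a k) (zs (p0 p) S i)) = fm (a k) S := fun k S =>
    (Rq_eq _ _ _).symm.trans (by rw [Rq_p0, zero_add])
  simp only [e1] at h1 h2
  simp only [e2] at h3
  have e3 : ∀ k, Pf (P144Y.J.ZZ P T (mv p (x k) (y k)) S (a k)) (lb univ.toList) =
      Pf (fun u v => σ u.1 k * σ v.1 k * P144Y.J.ZZ P T (mv p (x k) (y k)) S (a k) u v)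
        (lb univ.toList) := fun k => by
    rw [Pf_scale _ (fun u : Fin p.m × Bool => σ u.1 k) _ (lb_even _), lb_prod, prod_all]
    simp only [σ2, prod_const_one, one_mul]
  have e4 : ∀ K : Fin p.m × Bool → Fin p.m × Bool → ℝ, (∏ k, sj (p.j k)) * Pf K (lb univ.toList) =
      Pf (fun u v => wl p.j u * t u.1 * (wl p.j v * t v.1) * K u v) (lb univ.toList) := fun K => by
    rw [Pf_scale _ (fun u : Fin p.m × Bool => wl p.j u * t u.1) _ (lb_even _), lb_prod, prod_all]
    congr 1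
    refine prod_congr rfl fun k _ => ?_
    simp only [wl, if_true, Bool.false_eq_true, if_false]
    linear_combination (-sj (p.j k)) * t2 k
  simp only [e3]
  unfold vP
  rw [e4]
  refine Pf_tendsto _ _ _ ?_
  rintro ⟨k, b⟩ ⟨l, b'⟩ hs
  rcases sub_lb (nodup_toList _) hs with hkl | ⟨hkl, hb, hb'⟩
  · simp only at hkl
    have h4 := (h1 k l hkl b b').const_mul (wl p.j (k, b) * wl p.j (l, b'))
    rw [et_ty, et_ty] at h4
    convert h4 using 2 with i
    · unfold P144Y.J.ZZ cp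
      rw [if_neg hkl]
      ring
    · unfold kE
      rw [if_neg hkl]
      ring
  · simp only at hkl hb hb'
    subst hkl hb hb'
    have h4 := ((h2 k).sub (tendsto_finsetSum T.powerset fun S hS =>
      (hw S (mem_powerset.1 hS)).mul (h3 S (mem_powerset.1 hS) k))).const_mul (sj (p.j k))
    convert h4 using 2 with i
    · rw [σ2, one_mul, ZZ_diag _ _ _ _ _ _ (Q0 (p.j k))]
      rfl
    · have e5 : (eh (p.j k) * ∑ S ∈ T.powerset, (w S : ℂ) * (e₀ S).Y k 1).re =
          ∑ S ∈ T.powerset, w S * (eh (p.j k) * (e₀ S).Y k 1).re := by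
        simp only [mul_sum, Complex.re_sum, mul_left_comm (eh (p.j k)), Complex.re_ofReal_mul]
      simp only [kE, wl, if_true, Bool.false_eq_true, if_false, mul_sub, Complex.sub_re, e5]
      linear_combination (sj (p.j k) * ((eh (p.j k) * e.Y k 1).re -
        ∑ S ∈ T.powerset, w S * (eh (p.j k) * (e₀ S).Y k 1).re)) * t2 k

/-- **The plus model along moving points.** -/
theorem sPlus : SPlus := by
  intro J hJ Ω P T p hF hT hR hp ι l a x y h g g₀ e e₀ he he₀ hg hg₀
  refine (tendsto_iff_ultrafilter _ _ _).2 fun U hU => ?_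
  have h' : Mv (U : Filter ι) a p x y :=
    ⟨h.a0.mono_left hU, fun i => (h.hx i).mono_left hU, fun i => (h.hy i).mono_left hU⟩
  have g2 : ∀ S ⊆ T, Tendsto (fun k => MM (P (a k)) (fm (a k) S)) U (𝓝 (g₀ S)) := fun S hS =>
    ((hg₀ S hS).2.comp h'.a0).congr fun k => by simp [GW, fm]
  have hZ := tendsto_finsetSum T.powerset fun S hS => g2 S (mem_powerset.1 hS)
  have hZ0 : 0 < ∑ S ∈ T.powerset, g₀ S :=
    sum_pos (fun S hS => (hg₀ S (mem_powerset.1 hS)).1) ⟨∅, by simp⟩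
  refine ((tendsto_finsetSum T.powerset fun S hS => ((hg S (mem_powerset.1 hS)).mono_left hU).mul
    (pf_lim hF hT hp h' (mem_powerset.1 hS) (he S (mem_powerset.1 hS)) he₀
      fun S hS => (g2 S hS).div hZ hZ0.ne')).div hZ hZ0.ne').congr' ?_
  have hx : Function.Injective p.x := fun i i' h => Sum.inl_injective (hp.2.2 (by simpa using h))
  have hy : Function.Injective p.y := fun i i' h => Sum.inr_injective (hp.2.2 (by simpa using h))
  have hf := fun l => pt_fl h'.a0 (h'.hy l)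
  have e0 : ∀ᶠ k in (U : Filter ι), ∀ i i', x k i = x k i' → i = i' := by
    refine eventually_all.2 fun i => eventually_all.2 fun i' => ?_
    by_cases hi : i = i'
    · simp [hi]
    · filter_upwards [((h'.hx i).sub (h'.hx i')).eventually_ne
        (sub_ne_zero.2 fun e => hi (hx e))] with k hk e
      exact absurd (sub_eq_zero.2 e) hk
  have e1 : ∀ᶠ i in (U : Filter ι), ∀ k l, k ≠ l →
      fl (a i) (y i k) + dir (p.j k) ≠ fl (a i) (y i l) + dir (p.j l) := by
    refine eventually_all.2 fun k => eventually_all.2 fun l => ?_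
    by_cases hkl : k = l
    · simp [hkl]
    · filter_upwards [H170.ev_ne_add h'.a0 (hf k) (hf l)
        (fun h => hkl (hy h)) (dir (p.j l) - dir (p.j k))] with a ha _ e
      exact ha (by rw [← add_sub_assoc, ← e, add_sub_cancel_right])
  have e2 : ∀ᶠ i in (U : Filter ι), ∀ k, fl (a i) (y i k) + dir (p.j k) ∈ P (a i) :=
    eventually_all.2 fun k => (hF.1.comp h'.a0).mem h'.a0 (hp.2.1 k) (pt_shift h'.a0 (hf k) _)
  filter_upwards [e0, e1, e2, h'.a0.eventually hR, h'.a0.eventually self_mem_nhdsWithin]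
    with k h0 h1 h2 h3 h4
  exact (corr_pt (p := mv p (x k) (y k)) hJ h4 h0 h1 h2 h3).symm

end Vale.Agent.N144.KY
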