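import Vale.Agent.N144.KY.Pol

/-!
The data of the plus model exist.
-/

set_option linter.all false

namespace Vale.Agent.N144.KY

open Filter Topology Finset Vale.Agent.P144 Vale.Agent.N144.C
open Vale.Agent.P144.H170 (Pt pt RS VS RS_ne)
open Vale.Agent.P144.H135 (F0 w0 kap)
open Vale.Agent.P144Y (Dom FamP)
open Vale.Agent.P144Y.C (Geo geo_of)

variable {Ω : Dom} {ι κ : Type} [Fintype κ] {ζ : κ → ℂ} {P : ℝ → Finset Site} {l : Filter ι}
  {a : ι → ℝ} {z' : ℂ} {δ : ℝ}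

omit [Fintype κ] in
theorem mo_of (hF : FamP Ω.D P) (ha : Tendsto a l (𝓝[>] 0)) {x : ι → κ → ℂ}
    (hx : ∀ i, Tendsto (fun k => x k i) l (𝓝 (ζ i))) :
    Mo Ω l a (fun k => P (a k)) (fun i k => fl (a k) (x k i)) ζ :=
  ⟨ha, hF.1.comp ha, hF.2.imp fun _ b => ⟨b.1, ha.eventually b.2⟩, fun i => pt_fl ha (hx i)⟩

theorem geo_D (G : Geo Ω ζ z' δ) : z' ∈ Ω.D :=
  G.ball z' (by rw [sub_self, norm_zero]; have := G.δ0; positivity)

theorem geo_ne (G : Geo Ω ζ z' δ) (p : κ) : ζ p ≠ z' := fun e => by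
  have := G.far p
  rw [e, sub_self, norm_zero] at this
  linarith [G.δ0]

theorem ctr (G : Geo Ω ζ z' δ) : z' ∈ Metric.closedBall z' (24 * δ) :=
  Metric.mem_closedBall_self (by have := G.δ0; positivity)

theorem pol3 (hF : FamP Ω.D P) (G : Geo Ω ζ z' δ) {S : κ → Prop}
    (hS : Metric.closedBall z' (24 * δ) ⊆ VS S F0 ζ w0) (u : Option (Fin 2)) :
    ∃ q Y, Pol Ω ζ z' (RS S F0 ζ w0 z' * (et u * -kap)) q (RS S F0 ζ w0 z' * Y) ∧
      (et u * Y).re = 0 := by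
  have ha : Tendsto (fun a : ℝ => a) (Ultrafilter.of (𝓝[>] (0 : ℝ))) (𝓝[>] 0) :=
    Ultrafilter.of_le _
  have h := mo_of (x := fun _ => ζ) hF ha fun _ => tendsto_const_nhds
  have hg := pt_fl (x := fun _ => z') ha tendsto_const_nhds
  obtain ⟨QA, QB, QC, QE, K⟩ := ker u
  obtain ⟨q, y, hB⟩ := kl_exists h G hg K hS
  exact ⟨q, y z', pol_of G.δ0 (hS (ctr G)) hB, asy0 h K hB G.δ0 (geo_D G) hg⟩

theorem dec (η : ℂ) : ((η.re - η.im : ℝ) : ℂ) * et none + (√2 * η.im : ℝ) * et (some 0) = η := by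
  have : √2 ≠ 0 := by positivity
  apply Complex.ext <;> simp [et, eh] <;> field_simp <;> ring

theorem pol_all (hL : Lin Ω) (hF : FamP Ω.D P) (G : Geo Ω ζ z' δ) :
    ∃ (R : ℂ) (qA qB : ℂ → ℂ) (A B : ℂ), R ^ 2 = ∏ p, (z' - ζ p) ∧ ∀ η : ℂ,
      Pol Ω ζ z' (R * (η * -kap))
        (fun z => ((η.re - η.im : ℝ) : ℂ) * qA z + (√2 * η.im : ℝ) * qB z)
        (R * (((η.re - η.im : ℝ) : ℂ) * A + (√2 * η.im : ℝ) * B)) ∧
      (η * (((η.re - η.im : ℝ) : ℂ) * A + (√2 * η.im : ℝ) * B)).re = 0 := by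
  obtain ⟨S, hS⟩ := G.pat hF
  obtain ⟨qA, A, a1, a2⟩ := pol3 hF G hS none
  obtain ⟨qB, B, b1, b2⟩ := pol3 hF G hS (some 0)
  obtain ⟨qC, C, c1, c2⟩ := pol3 hF G hS (some 1)
  have key : ∀ η : ℂ, Pol Ω ζ z' (RS S F0 ζ w0 z' * (η * -kap))
      (fun z => ((η.re - η.im : ℝ) : ℂ) * qA z + (√2 * η.im : ℝ) * qB z)
      (RS S F0 ζ w0 z' * (((η.re - η.im : ℝ) : ℂ) * A + (√2 * η.im : ℝ) * B)) := fun η => by
    convert a1.lin hL G.inj (geo_ne G) b1 (η.re - η.im) (√2 * η.im) using 1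
    · conv_lhs => rw [← dec η]
      ring
    · ring
  refine ⟨_, qA, qB, A, B, RS_sq' z', fun η => ⟨key η, ?_⟩⟩
  have e := mul_left_cancel₀ (RS_ne (hS (ctr G)))
    (c1.unique G.inj (geo_ne G) (geo_D G) (key _)).2
  rw [e] at c2
  have h2 : √2 * √2 = (2 : ℝ) := Real.mul_self_sqrt (by norm_num)
  have h0 : √2 ≠ 0 := by positivity
  simp only [et, eh, if_true, one_ne_zero, if_false, one_mul, Complex.mul_re, Complex.add_re,
    Complex.add_im, Complex.mul_im, Complex.ofReal_re, Complex.ofReal_im] at a2 b2 c2 ⊢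
  have hb : B.re = B.im := by field_simp at b2; linarith
  have hc : A.im = √2 * B.im := by
    rw [a2, hb] at c2
    field_simp at c2
    linarith
  rw [a2, hb, hc]
  ring

theorem exE (hL : Lin Ω) (hF : FamP Ω.D P) {m : ℕ} {y : Fin m → ℂ}
    (hG : ∀ k, ∃ δ, Geo Ω ζ (y k) δ) : ∃ e, IsE Ω ζ y e := by
  choose δ G using hG
  choose R qA qB A B h1 h2 using fun k => pol_all hL hF (G k)
  refine ⟨⟨R, fun l η z => ((η.re - η.im : ℝ) : ℂ) * qA l z + (√2 * η.im : ℝ) * qB l z,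
    fun l η => ((η.re - η.im : ℝ) : ℂ) * A l + (√2 * η.im : ℝ) * B l⟩, h1, fun l η => (h2 l η).1,
    fun k l _ s t η η' => ?_, fun l s t η η' => ?_, fun l η => (h2 l η).2⟩ <;>
  · simp only [Complex.add_re, Complex.add_im, Complex.re_ofReal_mul, Complex.im_ofReal_mul]
    push_cast
    ring

/-- **The data of the plus model exist.** -/
theorem sExP : SExP := fun _ _ _ _ hL hF hp hT => exE hL hF (geo_of hp hT)

end Vale.Agent.N144.KY
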