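import Vale.Agent.N144.KY.Ex

/-!
The limits of the kernel in terms of the solutions of the boundary value problems.
-/

set_option linter.all false

namespace Vale.Agent.N144.KY

open Filter Topology Finset Vale.Agent.P144 Vale.Agent.N144.C
open Vale.Agent.P144.H170 (Pt pt rM RS VS Mk RS_ne)
open Vale.Agent.P144.H135 (F0 w0 kap gr sg0 gr_sq PKr pkA qA qB qC qE)
open Vale.Agent.P144S (Wf ce)
open Vale.Agent.P144S.C (gr_edge)
open Vale.Agent.P144Y (Dom FamP)
open Vale.Agent.P144Y.C (Geo)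

/-- The type of a corner of an energy. -/
def ty (j : Fin 2) (b : Bool) : Option (Fin 2) := if b then none else some j

/-- Its face. -/
def fc (v : Site) (j : Fin 2) (b : Bool) : Site := if b then v + dir j else v

/-- The value of the kernel of the plane. -/
noncomputable def Q0 (j : Fin 2) : ℝ := sel qA qB qC (some j) (-dir j)

theorem ce_eq (v : Site) (j : Fin 2) (b : Bool) : ce v j b = cn (ty j b) (fc v j b) := by
  cases b
  · rfl
  · exact (cnA _).symm

theorem et_ty (j : Fin 2) (b : Bool) : et (ty j b) = if b then 1 else eh j := by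
  cases b <;> rfl

variable {Ω : Dom} {ι κ : Type} [Fintype κ] {ζ : κ → ℂ}

theorem gr_fc (S : κ → Prop) (r : κ → Site) (v : Site) (j : Fin 2) (b : Bool) :
    gr S r ((fc v j b).1 + so (ty j b)) = gr S r (v.1 + so (some j)) := by
  cases b
  · rfl
  · obtain rfl | rfl : j = 0 ∨ j = 1 := by omega
    · refine Eq.trans ?_ (gr_edge S r v.1)
      simp [fc, ty, so, dir, add_assoc]
    · simp [fc, ty, so, dir]

theorem fc_lim {l : Filter ι} {a : ι → ℝ} {f : ι → Site} (ha : Tendsto a l (𝓝[>] 0)) {z : ℂ}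
    (hf : Tendsto (fun k => pt (a k) (f k)) l (𝓝 z)) (j : Fin 2) (b : Bool) :
    Tendsto (fun k => pt (a k) (fc (f k) j b)) l (𝓝 z) := by
  cases b
  exacts [hf, pt_shift ha hf _]

/-- **The kernel along moving points.** -/
theorem kern {U : Ultrafilter ι} {a : ι → ℝ} {N : ι → Finset Site} {r : κ → ι → Site}
    {P : ℝ → Finset Site} (hF : FamP Ω.D P) (h : Mo Ω (U : Filter ι) a N r ζ) {m : ℕ}
    {y : Fin m → ℂ} (hy : Function.Injective y) (hG : ∀ k, ∃ δ, Geo Ω ζ (y k) δ) {e : EF m}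
    (he : IsE Ω ζ y e) {f : Fin m → ι → Site}
    (hf : ∀ k, Tendsto (fun i => pt (a i) (f k i)) U (𝓝 (y k))) (j : Fin m → Fin 2) :
    (∃ (σ : Fin m → ι → ℝ) (t : Fin m → ℝ), (∀ k i, σ k i * σ k i = 1) ∧ (∀ k, t k * t k = 1) ∧
      ∀ k l, k ≠ l → ∀ b b', Tendsto (fun i => σ k i * σ l i *
        (Wf (N i) (rM fun p => r p i) [ce (f k i) (j k) b, ce (f l i) (j l) b'] / a i)) U
        (𝓝 (t k * t l * (et (ty (j k) b) * (e.q l (et (ty (j l) b')) (y k) / e.R k)).re))) ∧
    ∀ k, Tendsto (fun i => (Wf (N i) (rM fun p => r p i)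
      [ce (f k i) (j k) false, ce (f k i) (j k) true] - Q0 (j k)) / a i) U
      (𝓝 (eh (j k) * e.Y k 1).re) := by
  choose δ G using hG
  choose S hS using fun k => (G k).pat hF
  have hR := fun k => RS_ne (hS k (ctr (G k)))
  have ht : ∀ k, ∃ t : ℝ, t * t = 1 ∧ e.R k = t * RS (S k) F0 ζ w0 (y k) := fun k => by
    rcases sq_eq_sq_iff_eq_or_eq_neg.1 ((he.hR k).trans (RS_sq' (S := S k) _).symm) with a | a
    · exact ⟨1, one_mul _, by simpa using a⟩
    · exact ⟨-1, by norm_num, by simpa using a⟩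
  choose t t1 t2 using ht
  have t3 : ∀ k, (t k : ℂ) * t k = 1 := fun k => by exact_mod_cast t1 k
  have uq : ∀ l η q Y, Pol Ω ζ (y l) (RS (S l) F0 ζ w0 (y l) * (η * -kap)) q
      (RS (S l) F0 ζ w0 (y l) * Y) →
      (∀ z ∈ Ω.D, z ≠ y l → q z = t l * e.q l η z) ∧ Y = e.Y l η := fun l η q Y hq => by
    have h1 := (he.pol l η).mul (t l)
    simp only [t2, mul_assoc (t l : ℂ), ← mul_assoc (t l : ℂ) (t l : ℂ), t3, one_mul] at h1
    have h2 := hq.unique (G l).inj (geo_ne (G l)) (geo_D (G l)) h1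
    exact ⟨h2.1, mul_left_cancel₀ (hR l) h2.2⟩
  refine ⟨⟨fun k i => gr (S k) (fun p => r p i) ((f k i).1 + so (some (j k))), t,
    fun k i => gr_sq _ _ _, t1, fun k l hkl b b' => ?_⟩, fun k => ?_⟩
  · obtain ⟨QA, QB, QC, QE, K⟩ := ker (ty (j l) b')
    obtain ⟨q, Y, hB⟩ := kl_exists h (G l) (fc_lim h.a0 (hf l) (j l) b') K (hS l)
    have hne : y k ≠ y l := fun e => hkl (hy e)
    have h1 := tgt h hB (z := y k) ⟨⟨geo_D (G k), hne⟩, by
      rintro (⟨p, hp⟩ | ⟨p, -⟩)
      exacts [geo_ne (G k) p hp, p.elim]⟩ (hS k (ctr (G k))) (fc_lim h.a0 (hf k) (j k) b)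
      (ty (j k) b)
    rw [(uq l _ q _ (pol_of (G l).δ0 (hS l (ctr (G l))) hB)).1 _ (geo_D (G k)) hne] at h1
    convert h1 using 2 with i
    · rw [sg0_cn, gr_fc, gr_fc, ce_eq, ce_eq]
      ring
    · rw [← Complex.re_ofReal_mul, t2]
      congr 1
      have := hR k
      have h0 : (t k : ℂ) ≠ 0 := left_ne_zero_of_mul_eq_one (t3 k)
      push_cast
      field_simp
  · obtain ⟨q, Y, hB⟩ := kl_exists h (G k) (fc_lim h.a0 (hf k) (j k) true) kerA (hS k)
    have h1 := src h hB (G k).δ0 (geo_D (G k)) (hf k) (some (j k))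
    rw [(uq k _ q _ (pol_of (G k).δ0 (hS k (ctr (G k))) hB)).2] at h1
    refine h1.congr fun i => ?_
    have e1 := gr_fc (S k) (fun p => r p i) (f k i) (j k) true
    rw [sg0_cn, show so none = so (ty (j k) true) from rfl, e1, ← mul_assoc, gr_sq, one_mul, ce_eq,
      ce_eq, div_eq_inv_mul, show f k i - (cn none (fc (f k i) (j k) true)).2 = -dir (j k) by
        simp [cn, fc]]
    rfl

end Vale.Agent.N144.KY
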