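import Vale.Agent.N144.C.Uq

/-!
The limits of the kernel on the graph of the cells along moving points.
-/

set_option linter.all false

namespace Vale.Agent.N144.KY

open Filter Topology Finset Vale.Agent.P144 Vale.Agent.N144.C
open Vale.Agent.P144.H170 (Pt pt rM RS VS Mk gs phA phB phC RS_sq RS_diff RS_ne VS_ne of_xlim
  phA_apply phB_apply phC_apply)
open Vale.Agent.P144.H135 (eA eB eC eE gr sg0 F0 w0 v0 PKr gr_sq gr_eq seq_nf kap pkA pkC kx ky
  pt_add pt_smul qA qB qC qE)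
open Vale.Agent.P144S (Wf)
open Vale.Agent.P144S.C (kA kB kC eA_Wf eB_Wf eC_Wf src_one' cnr_Vx Wf_two' gr_edge)
open Vale.Agent.P144Y (Dom LC Appr FamP)
open Vale.Agent.P144Y.C (BLim Pos Geo BD exists_BD blim_exists)

/-! ### The three types of corners -/

/-- The offset of the vertex. -/
def uo : Option (Fin 2) → Site
  | none => (0, 0)
  | some j => dir j

/-- The phase. -/
noncomputable def et : Option (Fin 2) → ℂ
  | none => 1
  | some j => eh j

/-- The horizontal position in the face. -/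
noncomputable def so : Option (Fin 2) → ℝ
  | none => 1 / 4
  | some j => if j = 0 then 3 / 4 else 1 / 4

/-- The field of the type. -/
def sel {α : Type} (A B C : α) : Option (Fin 2) → α
  | none => A
  | some j => if j = 0 then B else C

/-- The corner of type `u` of the face `f`. -/
def cn (u : Option (Fin 2)) (f : Site) : AL.Cn := (f + uo u, f)

theorem cases3 (u : Option (Fin 2)) : u = none ∨ u = some 0 ∨ u = some 1 := by
  rcases u with _ | j
  · exact Or.inl rfl
  · obtain rfl | rfl : j = 0 ∨ j = 1 := by omega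
    exacts [Or.inr (Or.inl rfl), Or.inr (Or.inr rfl)]

theorem cnA (f : Site) : cn none f = (f, f) := by
  unfold cn uo; congr 1; ext <;> simp
theorem cnB (f : Site) : cn (some 0) f = ((f.1 + 1, f.2), f) := by
  unfold cn uo dir; congr 1; ext <;> simp
theorem cnC (f : Site) : cn (some 1) f = ((f.1, f.2 + 1), f) := by
  unfold cn uo dir; congr 1; ext <;> simp

theorem cn_cnr (u : Option (Fin 2)) (f : Site) : (cn u f).1 ∈ AL.cnr (cn u f).2 := by
  rcases cases3 u with rfl | rfl | rfl <;> simp [cnA, cnB, cnC, AL.mem_cnr]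

theorem phA_eq (w : ℂ) : phA w = (et none * w).re := by simp [et, phA_apply]
theorem phB_eq (w : ℂ) : phB w = (et (some 0) * w).re := by
  simp only [et, eh, phB_apply, if_true, Complex.mul_re]; ring
theorem phC_eq (w : ℂ) : phC w = (et (some 1) * w).re := by
  simp only [et, eh, phC_apply, one_ne_zero, if_false, Complex.mul_re]; ring

theorem kx_eq : kx (-kap) = et (some 0) * -kap := by
  simp only [kx, kap, et, eh, if_true, map_neg, map_div₀, map_sub, map_one, Complex.conj_I,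
    Complex.conj_ofReal]
  rw [← neg_div, div_mul_eq_mul_div, ← neg_div (Real.pi : ℂ), mul_div_assoc']
  congr 1
  apply Complex.ext <;> simp

theorem ky_eq : ky (-kap) = et (some 1) * -kap := by
  simp only [ky, kap, et, eh, one_ne_zero, if_false, map_neg, map_div₀, map_sub, map_one,
    Complex.conj_I, Complex.conj_ofReal]
  rw [← neg_div, div_mul_eq_mul_div, ← neg_div (Real.pi : ℂ), mul_div_assoc']
  congr 1
  apply Complex.ext <;> simp

theorem kerA : PKr (uo none) qA qB qC qE (et none * -kap) := by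
  simpa only [et, uo, one_mul] using pkA

/-- The kernels of the plane. -/
theorem ker (u : Option (Fin 2)) : ∃ QA QB QC QE, PKr (uo u) QA QB QC QE (et u * -kap) := by
  rcases cases3 u with rfl | rfl | rfl
  · exact ⟨_, _, _, _, kerA⟩
  · exact ⟨_, _, _, _, kx_eq ▸ pkA.xref⟩
  · exact ⟨_, _, _, _, ky_eq ▸ pkC⟩

theorem ep_self {u : Option (Fin 2)} {QA QB QC QE : Pt → ℝ} {κ0 : ℂ}
    (K : PKr (uo u) QA QB QC QE κ0) (f : Site) : AL.ep (cn u f) (cn u f) = sel QA QB QC u 0 := by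
  rcases cases3 u with rfl | rfl | rfl
  · rw [cnA]; exact Eq.trans (by simp [AL.ep]) (K.sA rfl).symm
  · rw [cnB]; exact Eq.trans (by simp [AL.ep]) (K.sB rfl).symm
  · rw [cnC]; exact Eq.trans (by simp [AL.ep]) (K.sC rfl).symm

variable {Ω : Dom} {ι κ : Type} [Fintype κ] {ζ : κ → ℂ} {S : κ → Prop}

theorem sg0_cn (r : κ → Site) (u : Option (Fin 2)) (f : Site) :
    sg0 S r (cn u f) = gr S r (f.1 + so u) := by
  rcases cases3 u with rfl | rfl | rfl <;> simp [cnA, cnB, cnC, sg0, gr, so]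

/-! ### The limit solves the boundary value problem -/

theorem RS_sq' (z : ℂ) : RS S F0 ζ w0 z ^ 2 = ∏ p, (z - ζ p) := by
  rw [sq, RS_sq]; simp

theorem RS_der {z : ℂ} (hz : z ∈ VS S F0 ζ w0) :
    HasDerivAt (RS S F0 ζ w0) (RS S F0 ζ w0 z * sh ζ z) z := by
  have h1 := logDeriv_fun_pow (RS_diff hz) 2
  have h2 := logDeriv_prod (s := univ) (f := fun p w => w - ζ p) (x := z)
    (fun p _ => sub_ne_zero.2 ((VS_ne hz).1 p)) (fun p _ => differentiableAt_id.sub_const _)
  simp only [RS_sq'] at h1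
  rw [h1] at h2
  simp only [logDeriv_apply, deriv_sub_const, deriv_id'', one_div] at h2
  have e : RS S F0 ζ w0 z * sh ζ z = deriv (RS S F0 ζ w0) z := by
    unfold sh
    rw [← h2]
    have := RS_ne hz
    push_cast
    field_simp
  exact e ▸ (RS_diff hz).hasDerivAt

variable {l : Filter ι} {a : ι → ℝ} {N : ι → Finset Site} {r : κ → ι → Site} {z' : ℂ} {δ : ℝ}
  {QA QB QC QE : Pt → ℝ} {κ0 : ℂ} {q y : ℂ → ℂ}

theorem pol_of {c : ι → AL.Cn} {A B C E : ι → Pt → ℝ} (hδ : 0 < δ) (hS : z' ∈ VS S F0 ζ w0)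
    (h : BLim Ω l a r ζ c z' δ A B C E S QA QB QC QE κ0 q y) :
    Pol Ω ζ z' (RS S F0 ζ w0 z' * κ0) q (RS S F0 ζ w0 z' * y z') where
  qd := h.qd
  bd := h.bd
  rs := h.rs
  loc := by
    have hb : Metric.ball z' (24 * δ) ∈ 𝓝 z' := Metric.ball_mem_nhds _ (by positivity)
    have h1 := (hasDerivAt_iff_tendsto_slope.1 (RS_der hS)).const_mul κ0
    have h2 := (((RS_diff hS).mul (h.yd.differentiableAt hb)).continuousAt.tendsto).mono_left
      (nhdsWithin_le_nhds (s := {z'}ᶜ))
    have h3 := h2.add h1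
    rw [show κ0 * (RS S F0 ζ w0 z' * sh ζ z') = RS S F0 ζ w0 z' * κ0 * sh ζ z' by ring] at h3
    refine h3.congr' ?_
    filter_upwards [self_mem_nhdsWithin, nhdsWithin_le_nhds hb] with z h4 h5
    rw [h.qy z h5 h4, slope_def_field, Pi.mul_apply]
    ring

/-! ### Moving points -/

/-- The domains and the disorders converge. -/
structure Mo (Ω : Dom) (l : Filter ι) (a : ι → ℝ) (N : ι → Finset Site) (r : κ → ι → Site)
    (ζ : κ → ℂ) : Prop where
  a0 : Tendsto a l (𝓝[>] 0)
  hN : Appr Ω.D l a N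
  lc : LC l a N
  hr : ∀ p, Tendsto (fun k => pt (a k) (r p k)) l (𝓝 (ζ p))

/-- The limit of the kernel with the source `c`. -/
abbrev KL (Ω : Dom) (l : Filter ι) (a : ι → ℝ) (N : ι → Finset Site) (r : κ → ι → Site)
    (ζ : κ → ℂ) (c : ι → AL.Cn) (z' : ℂ) (δ : ℝ) (S : κ → Prop) (QA QB QC QE : Pt → ℝ) (κ0 : ℂ)
    (q y : ℂ → ℂ) : Prop :=
  BLim Ω l a r ζ c z' δ (fun k => kA (N k) (fun p => r p k) (c k))
    (fun k => kB (N k) (fun p => r p k) (c k)) (fun k => kC (N k) (fun p => r p k) (c k))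
    (fun k => P144S.C.kE (N k) (fun p => r p k) (c k)) S QA QB QC QE κ0 q y

theorem kl_exists {U : Ultrafilter ι} (h : Mo Ω (U : Filter ι) a N r ζ) (G : Geo Ω ζ z' δ)
    {g : ι → Site} (hg : Tendsto (fun k => pt (a k) (g k)) U (𝓝 z')) {u : Option (Fin 2)}
    (K : PKr (uo u) QA QB QC QE κ0) (hS : Metric.closedBall z' (24 * δ) ⊆ VS S F0 ζ w0) :
    ∃ q y, KL Ω U a N r ζ (fun k => cn u (g k)) z' δ S QA QB QC QE κ0 q y := by
  have hpos : Pos Ω U a N r ζ (fun k => cn u (g k)) z' δ :=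
    ⟨h.a0, h.hN, h.lc, h.hr, hg, G.inj, G.dia, G.δ0, G.ball, G.far⟩
  have hmem : ∀ᶠ k in (U : Filter ι), g k ∈ N k := h.hN.mem h.a0 hpos.zD hg
  have hex : ∀ k, ∃ Hs Hf : Site → ℝ, g k ∈ N k → BD (N k) (fun p => r p k) (cn u (g k))
      (kA (N k) (fun p => r p k) (cn u (g k))) (kB (N k) (fun p => r p k) (cn u (g k)))
      (kC (N k) (fun p => r p k) (cn u (g k))) (P144S.C.kE (N k) (fun p => r p k) (cn u (g k)))
      Hs Hf := by
    intro k
    by_cases h : g k ∈ N k
    · obtain ⟨Hs, Hf, hB⟩ := exists_BD (fun p => r p k) (cn_cnr u (g k)) h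
      exact ⟨Hs, Hf, fun _ => hB⟩
    · exact ⟨0, 0, fun h' => absurd h' h⟩
  choose Hs Hf hB using hex
  exact blim_exists hpos (hmem.mono fun k hk => hB k hk) K (Eventually.of_forall fun _ => rfl) hS

variable {c : ι → AL.Cn} {f : ι → Site}

/-- The limit away from the source. -/
theorem tgt (h : Mo Ω l a N r ζ) (hB : KL Ω l a N r ζ c z' δ S QA QB QC QE κ0 q y) {z : ℂ}
    (hz : z ∈ (Ω.D \ {z'}) \ Mk ζ w0) {S' : κ → Prop} (hS' : z ∈ VS S' F0 ζ w0)
    (hf : Tendsto (fun k => pt (a k) (f k)) l (𝓝 z)) (u : Option (Fin 2)) :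
    Tendsto (fun k => gr S' (fun p => r p k) ((f k).1 + so u) * ((a k)⁻¹ *
      (sg0 S (fun p => r p k) (c k) * Wf (N k) (rM fun p => r p k) [cn u (f k), c k]))) l
      (𝓝 (et u * (q z / RS S' F0 ζ w0 z)).re) := by
  have hin := h.hN.mem h.a0 hz.1.1 hf
  rcases cases3 u with rfl | rfl | rfl
  · rw [← phA_eq]
    refine ((of_xlim (v := v0) (ω := w0) h.a0 h.hr (fun q => q.elim) hS' (Or.inl rfl) _ _
      (X := fun k x => (a k)⁻¹ * (sg0 S (fun i => r i k) (c k) *
        eA (c k) (kA (N k) (fun i => r i k) (c k)) x))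
      (hB.slim.A _ hz)).comp (seq_nf hf)).congr' ?_
    filter_upwards [hin] with k hk
    simp only [Function.comp_apply]
    rw [eA_Wf _ _ _ (cnr_Vx hk (by simp [AL.mem_cnr])), gr_eq, cnA]
    rfl
  · rw [← phB_eq]
    refine ((of_xlim (v := v0) (ω := w0) h.a0 h.hr (fun q => q.elim) hS' (Or.inr rfl) _ _
      (X := fun k x => (a k)⁻¹ * (sg0 S (fun i => r i k) (c k) *
        eB (c k) (kB (N k) (fun i => r i k) (c k)) x))
      (hB.slim.B _ hz)).comp (seq_nf hf)).congr' ?_
    filter_upwards [hin] with k hk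
    simp only [Function.comp_apply]
    rw [eB_Wf _ _ _ (cnr_Vx hk (by simp [AL.mem_cnr])), gr_eq, cnB]
    rfl
  · rw [← phC_eq]
    refine ((of_xlim (v := v0) (ω := w0) h.a0 h.hr (fun q => q.elim) hS' (Or.inl rfl) _ _
      (X := fun k x => (a k)⁻¹ * (sg0 S (fun i => r i k) (c k) *
        eC (c k) (kC (N k) (fun i => r i k) (c k)) x))
      (hB.slim.C _ hz)).comp (seq_nf hf)).congr' ?_
    filter_upwards [hin] with k hk
    simp only [Function.comp_apply]
    rw [eC_Wf _ _ _ (cnr_Vx hk (by simp [AL.mem_cnr])), gr_eq, cnC]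
    rfl

/-- The limit at the source. -/
theorem src (h : Mo Ω l a N r ζ) (hB : KL Ω l a N r ζ c z' δ S QA QB QC QE κ0 q y) (hδ : 0 < δ)
    (hz : z' ∈ Ω.D) (hf : Tendsto (fun k => pt (a k) (f k)) l (𝓝 z')) (u : Option (Fin 2)) :
    Tendsto (fun k => (a k)⁻¹ * (sg0 S (fun p => r p k) (c k) *
      (gr S (fun p => r p k) ((f k).1 + so u) * Wf (N k) (rM fun p => r p k) [cn u (f k), c k]) -
        sel QA QB QC u (f k - (c k).2))) l (𝓝 (et u * y z').re) := by
  have hin := h.hN.mem h.a0 hz hf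
  have hzo : z' ∈ Metric.ball z' (24 * δ) := Metric.mem_ball_self (by positivity)
  rcases cases3 u with rfl | rfl | rfl
  · rw [← phA_eq]
    refine ((hB.A _ hzo).comp (seq_nf hf)).congr' ?_
    filter_upwards [hin] with k hk
    simp only [Function.comp_apply]
    rw [eA_Wf _ _ _ (cnr_Vx hk (by simp [AL.mem_cnr])), cnA]
    rfl
  · rw [← phB_eq]
    refine ((hB.B _ hzo).comp (seq_nf hf)).congr' ?_
    filter_upwards [hin] with k hk
    simp only [Function.comp_apply]
    rw [eB_Wf _ _ _ (cnr_Vx hk (by simp [AL.mem_cnr])), cnB]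
    rfl
  · rw [← phC_eq]
    refine ((hB.C _ hzo).comp (seq_nf hf)).congr' ?_
    filter_upwards [hin] with k hk
    simp only [Function.comp_apply]
    rw [eC_Wf _ _ _ (cnr_Vx hk (by simp [AL.mem_cnr])), cnC]
    rfl

/-- The regular part is orthogonal to the phase of the source. -/
theorem asy0 [l.NeBot] {u : Option (Fin 2)} (h : Mo Ω l a N r ζ) (K : PKr (uo u) QA QB QC QE κ0)
    (hB : KL Ω l a N r ζ (fun k => cn u (f k)) z' δ S QA QB QC QE κ0 q y) (hδ : 0 < δ)
    (hz : z' ∈ Ω.D) (hf : Tendsto (fun k => pt (a k) (f k)) l (𝓝 z')) :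
    (et u * y z').re = 0 := by
  refine tendsto_nhds_unique (src h hB hδ hz hf u) (tendsto_const_nhds.congr fun k => ?_)
  rw [sg0_cn, ← mul_assoc, gr_sq, one_mul, Wf_two', src_one', mul_one, ep_self K,
    show f k - (cn u (f k)).2 = 0 from sub_self _, sub_self, mul_zero]

theorem pt_shift (ha : Tendsto a l (𝓝[>] 0)) {z : ℂ}
    (hf : Tendsto (fun k => pt (a k) (f k)) l (𝓝 z)) (w : Site) :
    Tendsto (fun k => pt (a k) (f k + w)) l (𝓝 z) := by
  have h1 := ((Complex.continuous_ofReal.tendsto 0).comp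
    (ha.mono_right nhdsWithin_le_nhds)).mul_const (pt 1 w)
  have h2 := hf.add h1
  rw [Complex.ofReal_zero, zero_mul, add_zero] at h2
  refine h2.congr fun k => ?_
  rw [pt_add, pt_smul (a k) w]
  rfl

theorem pt_fl (ha : Tendsto a l (𝓝[>] 0)) {x : ι → ℂ} {z : ℂ} (hx : Tendsto x l (𝓝 z)) :
    Tendsto (fun k => pt (a k) (fl (a k) (x k))) l (𝓝 z) := by
  have h1 : Tendsto (fun k => pt (a k) (fl (a k) (x k)) - x k) l (𝓝 0) := by
    have h2 := (ha.mono_right nhdsWithin_le_nhds).const_mul 2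
    rw [mul_zero] at h2
    refine squeeze_zero_norm' ?_ h2
    filter_upwards [ha.eventually self_mem_nhdsWithin] with k hk using H170.pt_fl_norm hk _
  simpa using h1.add hx

end Vale.Agent.N144.KY
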